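/-
S0170 team project, WP-A5b (helper62): computable rational approximations of the values of the
potential field `Helper68.thetaField` at rational points.
-/
import Crest.Agent.Helper68.BoxFlow.ThetaDefs
import Crest.Agent.Helper82.CompList

set_option autoImplicit false
open Crest.AnalysisR.BoxFlow Crest.Agent.Helper21 Crest.Agent.Helper68

namespace Crest.Agent.Helper62

/-! ### Approximation of numbers in `[0, 1]` by rationals in `[0, 1]` -/

/-- `y` is a rational approximation of `x` within `δ`, both in `[0, 1]`. -/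
def Approx01 (x : ℝ) (y : ℚ) (δ : ℝ) : Prop :=
  0 ≤ x ∧ x ≤ 1 ∧ 0 ≤ y ∧ y ≤ 1 ∧ |x - (y : ℝ)| ≤ δ

theorem Approx01.mul {x x' : ℝ} {y y' : ℚ} {δ δ' : ℝ} (h : Approx01 x y δ)
    (h' : Approx01 x' y' δ') : Approx01 (x * x') (y * y') (δ + δ') := by
  obtain ⟨h0, h1, g0, g1, hd⟩ := h
  obtain ⟨h0', h1', g0', g1', hd'⟩ := h'
  have gr0 : (0:ℝ) ≤ y := by exact_mod_cast g0
  have gr1 : (y:ℝ) ≤ 1 := by exact_mod_cast g1
  have gr0' : (0:ℝ) ≤ y' := by exact_mod_cast g0'
  have gr1' : (y':ℝ) ≤ 1 := by exact_mod_cast g1'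
  refine ⟨mul_nonneg h0 h0', mul_le_one₀ h1 h0' h1', mul_nonneg g0 g0',
    mul_le_one₀ g1 g0' g1', ?_⟩
  have e : x * x' - ((y * y' : ℚ) : ℝ) = x * (x' - y') + y' * (x - y) := by
    push_cast; ring
  rw [e]
  have a1 : |x * (x' - (y' : ℝ))| ≤ δ' := by
    rw [abs_mul, abs_of_nonneg h0]
    calc x * |x' - (y' : ℝ)| ≤ 1 * |x' - (y' : ℝ)| :=
          mul_le_mul_of_nonneg_right h1 (abs_nonneg _)
      _ ≤ δ' := by rw [one_mul]; exact hd'
  have a2 : |(y' : ℝ) * (x - (y : ℝ))| ≤ δ := by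
    rw [abs_mul, abs_of_nonneg gr0']
    calc (y' : ℝ) * |x - (y : ℝ)| ≤ 1 * |x - (y : ℝ)| :=
          mul_le_mul_of_nonneg_right gr1' (abs_nonneg _)
      _ ≤ δ := by rw [one_mul]; exact hd
  calc |x * (x' - (y' : ℝ)) + (y' : ℝ) * (x - (y : ℝ))|
      ≤ |x * (x' - (y' : ℝ))| + |(y' : ℝ) * (x - (y : ℝ))| := abs_add_le _ _
    _ ≤ δ + δ' := by linarith

/-- Clamping a rational to `[0, 1]`. -/
def clamp01 (r : ℚ) : ℚ := max 0 (min 1 r)

theorem approx01_clamp {s : ℝ} (hs0 : 0 ≤ s) (hs1 : s ≤ 1) {y : ℚ} {δ : ℝ}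
    (h : |s - (y : ℝ)| ≤ δ) : Approx01 s (clamp01 y) δ := by
  refine ⟨hs0, hs1, le_max_left _ _, max_le zero_le_one (min_le_left _ _), ?_⟩
  refine le_trans ?_ h
  unfold clamp01
  rcases le_total y 0 with h0 | h0
  · have hy : (y:ℝ) ≤ 0 := by exact_mod_cast h0
    rw [min_eq_right (h0.trans zero_le_one), max_eq_left h0]
    rw [Rat.cast_zero, sub_zero, abs_of_nonneg hs0]
    exact le_trans (by linarith) (le_abs_self _)
  · rcases le_total y 1 with h1 | h1
    · rw [min_eq_right h1, max_eq_right h0]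
    · have hy : (1:ℝ) ≤ y := by exact_mod_cast h1
      rw [min_eq_left h1, max_eq_right zero_le_one, Rat.cast_one]
      rw [abs_sub_comm, abs_sub_comm s]
      rw [abs_of_nonneg (by linarith)]
      exact le_trans (by linarith) (le_abs_self _)

/-! ### The rational evaluator -/

section
variable (A : ℚ × ℕ → ℚ) (a : Fin 3) (α : ℚ) (w lo hi : Fin 3 → ℚ) (m t₀ t₁ : ℚ)

/-- Clamped approximation of `stp r` with precision `N`. -/
def stpQ (r : ℚ) (N : ℕ) : ℚ := clamp01 (A (r, N))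

/-- Approximation of `plat lo hi m x`. -/
def platQ (lo hi m x : ℚ) (N : ℕ) : ℚ :=
  stpQ A ((x - (lo - m)) / m) N * stpQ A (((hi + m) - x) / m) N

/-- The exact rational value of `potF` at a rational point. -/
def potQ (q : Fin 3 → ℚ) : ℚ :=
  q (a + 1) * (α + w (a + 1) * q (a + 1) / 2 + w (a + 2) * q (a + 2))

/-- The working precision. -/
def thetaPrec (q : Fin 3 → ℚ) (n : ℕ) : ℕ := 7 * (n + 1) * (⌈|potQ a α w q|⌉₊ + 1)

/-- The rational approximation of `theta` at a rational point. -/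
def thetaQ (t : ℚ) (q : Fin 3 → ℚ) (n : ℕ) : ℚ :=
  stpQ A ((t - t₀) / (t₁ - t₀)) (thetaPrec a α w q n)
    * platQ A (lo a) (hi a) m (q a) (thetaPrec a α w q n)
    * platQ A (lo (a + 1)) (hi (a + 1)) m (q (a + 1)) (thetaPrec a α w q n)
    * platQ A (lo (a + 2)) (hi (a + 2)) m (q (a + 2)) (thetaPrec a α w q n)
    * potQ a α w q

theorem potF_ratPoint (q : Fin 3 → ℚ) : potF a α w (ratPoint q) = ((potQ a α w q : ℚ) : ℝ) := by
  simp only [potF, ratPoint, potQ]
  push_cast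
  ring

variable {A}
variable (hA : ∀ (r : ℚ) (n : ℕ), |stp (r : ℝ) - (A (r, n) : ℝ)| ≤ 1 / ((n : ℝ) + 1))
include hA

theorem stpQ_approx (r : ℚ) (N : ℕ) : Approx01 (stp (r : ℝ)) (stpQ A r N) (1 / ((N : ℝ) + 1)) :=
  approx01_clamp (Real.smoothTransition.nonneg _) (Real.smoothTransition.le_one _) (hA r N)

theorem platQ_approx (lo hi m x : ℚ) (N : ℕ) :
    Approx01 (plat lo hi m (x : ℝ)) (platQ A lo hi m x N)
      (1 / ((N : ℝ) + 1) + 1 / ((N : ℝ) + 1)) := by
  have h1 := stpQ_approx hA ((x - (lo - m)) / m) N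
  have h2 := stpQ_approx hA (((hi + m) - x) / m) N
  have := h1.mul h2
  unfold plat platQ
  convert this using 3 <;> push_cast <;> ring

theorem thetaQ_approx (t : ℚ) (q : Fin 3 → ℚ) (n : ℕ) :
    |theta a α w lo hi m t₀ t₁ ((t : ℝ), ratPoint q) - (thetaQ A a α w lo hi m t₀ t₁ t q n : ℝ)|
      ≤ 1 / ((n : ℝ) + 1) := by
  set N := thetaPrec a α w q n with hN
  have hT : Approx01 (timeProfile t₀ t₁ (t : ℝ)) (stpQ A ((t - t₀) / (t₁ - t₀)) N)
      (1 / ((N : ℝ) + 1)) := by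
    have := stpQ_approx hA ((t - t₀) / (t₁ - t₀)) N
    unfold timeProfile
    convert this using 2
    push_cast; ring
  have hP := fun j : Fin 3 => platQ_approx hA (lo j) (hi j) m (q j) N
  have h := ((hT.mul (hP a)).mul (hP (a + 1))).mul (hP (a + 2))
  obtain ⟨-, -, -, -, hd⟩ := h
  unfold theta thetaQ
  rw [potF_ratPoint]
  simp only [ratPoint] at hd ⊢
  rw [← hN]
  set X : ℝ := timeProfile t₀ t₁ (t : ℝ) * plat (lo a) (hi a) m (q a : ℝ)
      * plat (lo (a + 1)) (hi (a + 1)) m (q (a + 1) : ℝ)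
      * plat (lo (a + 2)) (hi (a + 2)) m (q (a + 2) : ℝ) with hXdef
  set Y : ℚ := stpQ A ((t - t₀) / (t₁ - t₀)) N * platQ A (lo a) (hi a) m (q a) N
      * platQ A (lo (a + 1)) (hi (a + 1)) m (q (a + 1)) N
      * platQ A (lo (a + 2)) (hi (a + 2)) m (q (a + 2)) N with hYdef
  set P : ℚ := potQ a α w q with hPdef
  have e : X * (P : ℝ) - ((Y * P : ℚ) : ℝ) = (X - (Y : ℝ)) * (P : ℝ) := by push_cast; ring
  rw [e, abs_mul]
  have hN1 : (0:ℝ) < (N : ℝ) + 1 := by positivity
  have hn1 : (0:ℝ) < (n : ℝ) + 1 := by positivity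
  have hd' : |X - (Y : ℝ)| ≤ 7 / ((N : ℝ) + 1) := by
    refine hd.trans (le_of_eq ?_)
    field_simp
    ring
  have hPabs : |(P : ℝ)| ≤ (⌈|P|⌉₊ : ℝ) := by
    have h1 : |P| ≤ ((⌈|P|⌉₊ : ℕ) : ℚ) := Nat.le_ceil _
    have h2 : ((|P| : ℚ) : ℝ) ≤ ((⌈|P|⌉₊ : ℕ) : ℝ) := by exact_mod_cast h1
    simpa [Rat.cast_abs] using h2
  have hNval : (N : ℝ) = 7 * ((n : ℝ) + 1) * ((⌈|P|⌉₊ : ℝ) + 1) := by
    rw [hN]; unfold thetaPrec; push_cast; ring
  have hkey : 7 * |(P : ℝ)| * ((n : ℝ) + 1) ≤ (N : ℝ) + 1 := by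
    rw [hNval]
    have := abs_nonneg (P : ℝ)
    nlinarith
  calc |X - (Y : ℝ)| * |(P : ℝ)| ≤ 7 / ((N : ℝ) + 1) * |(P : ℝ)| :=
        mul_le_mul_of_nonneg_right hd' (abs_nonneg _)
    _ ≤ 1 / ((n : ℝ) + 1) := by
        rw [div_mul_eq_mul_div, div_le_div_iff₀ hN1 hn1]
        linarith

end

/-! ### Computability of the evaluator -/

section comp
variable {γ : Type*} [Primcodable γ]

theorem cadd {f g : γ → ℚ} (hf : Computable f) (hg : Computable g) :
    Computable fun x => f x + g x := Crest.Agent.Helper82.rat_add.comp hf hg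

theorem csub {f g : γ → ℚ} (hf : Computable f) (hg : Computable g) :
    Computable fun x => f x - g x := Crest.Agent.Helper82.rat_sub.comp hf hg

theorem cmul {f g : γ → ℚ} (hf : Computable f) (hg : Computable g) :
    Computable fun x => f x * g x := Crest.Agent.Helper82.rat_mul.comp hf hg

theorem cdiv {f g : γ → ℚ} (hf : Computable f) (hg : Computable g) :
    Computable fun x => f x / g x := Crest.Agent.Helper82.rat_div.comp hf hg

theorem cclamp {f : γ → ℚ} (hf : Computable f) : Computable fun x => clamp01 (f x) :=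
  (Crest.Agent.Helper82.primrec_rat_max.to_comp).comp (Computable.const 0)
    ((Crest.Agent.Helper82.primrec_rat_min.to_comp).comp (Computable.const 1) hf)

variable {A : ℚ × ℕ → ℚ} (hAc : Computable A)
include hAc

theorem stpQ_computable {r : γ → ℚ} {N : γ → ℕ} (hr : Computable r) (hN : Computable N) :
    Computable fun x => stpQ A (r x) (N x) :=
  cclamp (hAc.comp (Computable.pair hr hN))

theorem platQ_computable (lo hi m : ℚ) {u : γ → ℚ} {N : γ → ℕ} (hu : Computable u)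
    (hN : Computable N) : Computable fun x => platQ A lo hi m (u x) (N x) :=
  cmul (stpQ_computable hAc (cdiv (csub hu (Computable.const (lo - m))) (Computable.const m)) hN)
    (stpQ_computable hAc (cdiv (csub (Computable.const (hi + m)) hu) (Computable.const m)) hN)

omit hAc in
theorem potQ_computable (a : Fin 3) (α : ℚ) (w : Fin 3 → ℚ) {Q : γ → Fin 3 → ℚ}
    (hQ : Computable Q) : Computable fun x => potQ a α w (Q x) :=
  have hq : ∀ j : Fin 3, Computable fun x => Q x j :=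
    fun j => Crest.Agent.Helper82.computable_apply hQ j
  cmul (hq (a + 1)) (cadd (cadd (Computable.const α)
    (cdiv (cmul (Computable.const (w (a + 1))) (hq (a + 1))) (Computable.const 2)))
    (cmul (Computable.const (w (a + 2))) (hq (a + 2))))

omit hAc in
theorem thetaPrec_computable (a : Fin 3) (α : ℚ) (w : Fin 3 → ℚ) {Q : γ → Fin 3 → ℚ}
    {n : γ → ℕ} (hQ : Computable Q) (hn : Computable n) :
    Computable fun x => thetaPrec a α w (Q x) (n x) :=
  have hmul := Primrec.nat_mul.to_comp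
  have hadd := Primrec.nat_add.to_comp
  hmul.comp (hmul.comp (Computable.const 7) (hadd.comp hn (Computable.const 1)))
    (hadd.comp (Crest.Agent.Helper82.rat_natCeil.comp
      (Crest.Agent.Helper82.rat_abs.comp (potQ_computable a α w hQ))) (Computable.const 1))

theorem thetaQ_computable (a : Fin 3) (α : ℚ) (w lo hi : Fin 3 → ℚ) (m t₀ t₁ : ℚ) :
    Computable fun x : (ℚ × (Fin 3 → ℚ)) × ℕ =>
      thetaQ A a α w lo hi m t₀ t₁ x.1.1 x.1.2 x.2 := by
  have ht : Computable fun x : (ℚ × (Fin 3 → ℚ)) × ℕ => x.1.1 :=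
    Computable.fst.comp Computable.fst
  have hQ : Computable fun x : (ℚ × (Fin 3 → ℚ)) × ℕ => x.1.2 :=
    Computable.snd.comp Computable.fst
  have hn : Computable fun x : (ℚ × (Fin 3 → ℚ)) × ℕ => x.2 := Computable.snd
  have hq : ∀ j : Fin 3, Computable fun x : (ℚ × (Fin 3 → ℚ)) × ℕ => x.1.2 j :=
    fun j => Crest.Agent.Helper82.computable_apply hQ j
  have hN := thetaPrec_computable a α w hQ hn
  have hT := stpQ_computable hAc
    (cdiv (csub ht (Computable.const t₀)) (Computable.const (t₁ - t₀))) hN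
  have hP := fun j : Fin 3 => platQ_computable hAc (lo j) (hi j) m (hq j) hN
  exact cmul (cmul (cmul (cmul hT (hP a)) (hP (a + 1))) (hP (a + 2)))
    (potQ_computable a α w hQ)

end comp

/-- **Values of `thetaField`**: a computable rational approximation at rational points. -/
theorem thetaField_values {A : ℚ × ℕ → ℚ} (hAc : Computable A)
    (hA : ∀ (r : ℚ) (n : ℕ), |stp (r : ℝ) - (A (r, n) : ℝ)| ≤ 1 / ((n : ℝ) + 1))
    (e a : Fin 3) (α : ℚ) (w lo hi : Fin 3 → ℚ) (m t₀ t₁ : ℚ) :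
    ∃ E₀ : (ℚ × (Fin 3 → ℚ)) × ℕ → (Fin 3 → ℚ), Computable E₀ ∧
      ∀ (t : ℚ) (q : Fin 3 → ℚ) (n : ℕ) (j : Fin 3),
        |thetaField e a α w lo hi m t₀ t₁ ((t : ℝ), ratPoint q) j - (E₀ ((t, q), n) j : ℝ)|
          ≤ 1 / ((n : ℝ) + 1) := by
  refine ⟨fun x => Pi.single e (thetaQ A a α w lo hi m t₀ t₁ x.1.1 x.1.2 x.2), ?_, ?_⟩
  · apply Crest.Agent.Helper82.computable_pi
    intro i
    by_cases hi : i = e
    · subst hi
      exact (thetaQ_computable hAc a α w lo hi m t₀ t₁).of_eq fun x => by simp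
    · exact (Computable.const (0 : ℚ)).of_eq fun x => by simp [Pi.single_eq_of_ne hi]
  · intro t q n j
    unfold thetaField
    by_cases hj : j = e
    · subst hj
      simp only [Pi.single_eq_same]
      exact thetaQ_approx a α w lo hi m t₀ t₁ hA t q n
    · simp only [Pi.single_eq_of_ne hj, Rat.cast_zero, sub_zero, abs_zero]
      positivity

end Crest.Agent.Helper62
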