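/-
S0170 team project, WP-A5b (helper62): the move field is effective.
Assembly: values of `thetaField` (`ThetaVal.lean`, from WP-A2 and WP-A4), bounds of `thetaField`
(helper31), the finite-difference theorem WP-A3 (helper57) and the curl identity (helper68).
-/
import Crest.Agent.Helper21.BoxFlow.FinalOf2
import Crest.Agent.Helper19.BoxFlow.A2Final
import Crest.Agent.Helper57.BoxFlow.A3
import Crest.Agent.Helper62.BoxFlow.ThetaVal

set_option autoImplicit false
open scoped ContDiff
open Crest.AnalysisR.BoxFlow Crest.Agent.Helper21

namespace Crest.Agent.Helper62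

/-- The values of `thetaField` at rational points are computably approximable. -/
theorem thetaValues : Crest.Agent.Helper21.ThetaValues := by
  intro e a α w lo hi m t₀ t₁ _ _
  obtain ⟨A, hAc, hA⟩ := Crest.Agent.Helper19.stp_approx
  exact thetaField_values hAc hA e a α w lo hi m t₀ t₁

/-- WP-A3 in the form used by the assembly. -/
theorem a3Statement : Crest.Agent.Helper21.A3Statement :=
  fun F hF E₀ hE₀ hval bound hb hbound =>
    Crest.Agent.Helper57.effective_of_values_bounds F hF E₀ hE₀ hval bound hb hbound

theorem moveFieldEffective : Crest.Agent.Helper21.MoveFieldEffective :=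
  Crest.Agent.Helper21.moveFieldEffective_of a3Statement thetaValues

/-- **WP-A5b** (the statement of `Spec.moveField_effective`). -/
theorem moveField_effective (a : Fin 3) (α : ℚ) (w lo hi : Fin 3 → ℚ) (m t₀ t₁ : ℚ)
    (hm : 0 < m) (ht : t₀ < t₁) : Effective (moveField a α w lo hi m t₀ t₁) :=
  moveFieldEffective a α w lo hi m t₀ t₁ hm ht

end Crest.Agent.Helper62
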