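/-
S0170 team project, WP-A5b (helper62): generic bounds for mixed derivatives through
iterated Fréchet derivatives.
-/
import Crest.Agent.Helper21.BoxFlow.MixedDeriv

set_option autoImplicit false
open scoped ContDiff
open Crest.AnalysisR.BoxFlow Crest.Agent.Helper21

namespace Crest.Agent.Helper62

/-- Every space-time direction has norm at most one. -/
theorem norm_direction_le (d : Fin 4) : ‖direction d‖ ≤ 1 := by
  unfold direction
  split_ifs with h
  · simp [Prod.norm_def]
  · rw [Prod.norm_def]
    simp only [norm_zero]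
    rw [max_eq_right (norm_nonneg _)]
    rw [pi_norm_le_iff_of_nonneg zero_le_one]
    intro i
    by_cases hi : i = d.pred h
    · subst hi; simp
    · simp [Pi.single_eq_of_ne hi]

/-- The scalar mixed derivative is the iterated Fréchet derivative evaluated on the coordinate
directions. -/
theorem mixedDerivS_eq_iteratedFDeriv {θ : ℝ × Sp → ℝ} (hθ : ContDiff ℝ ∞ θ)
    (ds : List (Fin 4)) (p : ℝ × Sp) :
    mixedDerivS ds θ p = iteratedFDeriv ℝ ds.length θ p (fun i => direction (ds.get i)) := by
  induction ds generalizing p with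
  | nil => simp [mixedDerivS]
  | cons d ds ih =>
    rw [mixedDerivS_cons]
    have hfun : mixedDerivS ds θ
        = fun q => iteratedFDeriv ℝ ds.length θ q (fun i => direction (ds.get i)) := by
      funext q; exact ih q
    rw [hfun]
    have hd : DifferentiableAt ℝ (iteratedFDeriv ℝ ds.length θ) p :=
      (hθ.differentiable_iteratedFDeriv (by exact_mod_cast WithTop.coe_lt_top _)) p
    have := hd.iteratedFDeriv_succ_apply_left'
      (m := fun i : Fin (ds.length + 1) => direction ((d :: ds).get i))
    simp only [List.length_cons]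
    rw [this]
    rfl

/-- A scalar mixed derivative is bounded by the norm of the iterated Fréchet derivative. -/
theorem abs_mixedDerivS_le {θ : ℝ × Sp → ℝ} (hθ : ContDiff ℝ ∞ θ)
    (ds : List (Fin 4)) (p : ℝ × Sp) :
    |mixedDerivS ds θ p| ≤ ‖iteratedFDeriv ℝ ds.length θ p‖ := by
  rw [mixedDerivS_eq_iteratedFDeriv hθ]
  rw [← Real.norm_eq_abs]
  refine (ContinuousMultilinearMap.le_opNorm _ _).trans ?_
  have : ∏ i : Fin ds.length, ‖direction (ds.get i)‖ ≤ 1 := by
    apply Finset.prod_le_one
    · intro i _; exact norm_nonneg _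
    · intro i _; exact norm_direction_le _
  calc ‖iteratedFDeriv ℝ ds.length θ p‖ * ∏ i : Fin ds.length, ‖direction (ds.get i)‖
      ≤ ‖iteratedFDeriv ℝ ds.length θ p‖ * 1 :=
        mul_le_mul_of_nonneg_left this (norm_nonneg _)
    _ = _ := mul_one _


/-! ### Pointwise bounds for all iterated derivatives, closed under products -/

section DerivBdd
variable {E : Type*} [NormedAddCommGroup E] [NormedSpace ℝ E]

/-- `f` is smooth and all its iterated Fréchet derivatives at the point `p` are bounded by the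
monotone sequence `A`. -/
structure DerivBddAt (f : E → ℝ) (p : E) (A : ℕ → ℝ) : Prop where
  smooth : ContDiff ℝ ∞ f
  mono : Monotone A
  bdd : ∀ i, ‖iteratedFDeriv ℝ i f p‖ ≤ A i

theorem DerivBddAt.nonneg {f : E → ℝ} {p : E} {A : ℕ → ℝ} (h : DerivBddAt f p A) (i : ℕ) :
    0 ≤ A i := (norm_nonneg _).trans (h.bdd i)

/-- Products: the Leibniz rule. -/
theorem DerivBddAt.mul {f g : E → ℝ} {p : E} {A A' : ℕ → ℝ}
    (hf : DerivBddAt f p A) (hg : DerivBddAt g p A') :
    DerivBddAt (fun y => f y * g y) p (fun k => 2 ^ k * A k * A' k) where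
  smooth := hf.smooth.mul hg.smooth
  mono := by
    intro i j hij
    have h2 : (2:ℝ) ^ i ≤ 2 ^ j := pow_le_pow_right₀ (by norm_num) hij
    have hA := hf.mono hij
    have hA' := hg.mono hij
    have := hf.nonneg i
    have := hg.nonneg i
    have := hf.nonneg j
    have := hg.nonneg j
    have h2i : (0:ℝ) ≤ 2 ^ i := by positivity
    exact mul_le_mul (mul_le_mul h2 hA (by assumption) (by positivity)) hA' (by assumption)
      (by positivity)
  bdd := by
    intro i
    have h1 := norm_iteratedFDeriv_mul_le (𝕜 := ℝ) hf.smooth hg.smooth p (n := i)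
      (by exact_mod_cast le_top)
    refine h1.trans ?_
    have h2 : ∀ j ∈ Finset.range (i + 1),
        (i.choose j : ℝ) * ‖iteratedFDeriv ℝ j f p‖ * ‖iteratedFDeriv ℝ (i - j) g p‖
          ≤ (i.choose j : ℝ) * (A i * A' i) := by
      intro j hj
      have hj' : j ≤ i := Nat.lt_succ_iff.mp (Finset.mem_range.mp hj)
      have e1 : ‖iteratedFDeriv ℝ j f p‖ ≤ A i := (hf.bdd j).trans (hf.mono hj')
      have e2 : ‖iteratedFDeriv ℝ (i - j) g p‖ ≤ A' i :=
        (hg.bdd (i - j)).trans (hg.mono (Nat.sub_le i j))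
      rw [mul_assoc]
      exact mul_le_mul_of_nonneg_left
        (mul_le_mul e1 e2 (norm_nonneg _) (hf.nonneg i)) (Nat.cast_nonneg _)
    refine (Finset.sum_le_sum h2).trans (le_of_eq ?_)
    rw [← Finset.sum_mul, ← Nat.cast_sum, Nat.sum_range_choose]
    push_cast
    ring

/-- Weakening the bound. -/
theorem DerivBddAt.mono_bound {f : E → ℝ} {p : E} {A A' : ℕ → ℝ}
    (hf : DerivBddAt f p A) (hA' : Monotone A') (h : ∀ i, A i ≤ A' i) : DerivBddAt f p A' where
  smooth := hf.smooth
  mono := hA'
  bdd := fun i => (hf.bdd i).trans (h i)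

/-- A smooth function of one real variable composed with an affine functional. -/
theorem derivBddAt_comp_affine {h : ℝ → ℝ} (hh : ContDiff ℝ ∞ h) (L : E →L[ℝ] ℝ) (c₀ : ℝ)
    (p : E) {A : ℕ → ℝ} (hA : Monotone A)
    (hbd : ∀ i, |iteratedDeriv i h (L p + c₀)| ≤ A i) {c : ℝ} (hc1 : 1 ≤ c) (hc : ‖L‖ ≤ c) :
    DerivBddAt (fun y => h (L y + c₀)) p (fun k => A k * c ^ k) where
  smooth := hh.comp ((L.contDiff).add contDiff_const)
  mono := by
    intro i j hij
    have h0 : 0 ≤ A i := (abs_nonneg _).trans (hbd i)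
    have hc0 : (0:ℝ) ≤ c := zero_le_one.trans hc1
    exact mul_le_mul (hA hij) (pow_le_pow_right₀ hc1 hij) (by positivity)
      (h0.trans (hA hij))
  bdd := by
    intro i
    have hsm : ContDiff ℝ ∞ (fun z : ℝ => h (z + c₀)) :=
      hh.comp (contDiff_id.add contDiff_const)
    have e1 : (fun y => h (L y + c₀)) = (fun z : ℝ => h (z + c₀)) ∘ L := rfl
    rw [e1, L.iteratedFDeriv_comp_right hsm p (i := i) (by exact_mod_cast le_top)]
    refine (ContinuousMultilinearMap.norm_compContinuousLinearMap_le _ _).trans ?_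
    rw [iteratedFDeriv_comp_add_right, norm_iteratedFDeriv_eq_norm_iteratedDeriv,
      Real.norm_eq_abs, Finset.prod_const, Finset.card_univ, Fintype.card_fin]
    have hc0 : (0:ℝ) ≤ c := zero_le_one.trans hc1
    exact mul_le_mul (hbd i) (pow_le_pow_left₀ (norm_nonneg _) hc i) (by positivity)
      ((abs_nonneg _).trans (hbd i))

/-- An affine functional: all derivatives are bounded by `max |value| 1`-type constants. -/
theorem derivBddAt_affine (L : E →L[ℝ] ℝ) (c₀ : ℝ) (p : E) {M c : ℝ} (hM : |L p + c₀| ≤ M)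
    (hM1 : 1 ≤ M) (hc1 : 1 ≤ c) (hc : ‖L‖ ≤ c) :
    DerivBddAt (fun y => L y + c₀) p (fun k => M * c ^ k) := by
  have := derivBddAt_comp_affine (h := id) contDiff_id L c₀ p (A := fun _ => M)
    monotone_const (fun i => by
      rw [iteratedDeriv_id]
      split_ifs
      · exact hM
      · simpa using hM1
      · simpa using (zero_le_one.trans hM1)) hc1 hc
  exact this

end DerivBdd

end Crest.Agent.Helper62
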