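/-
S0170 team project, WP-A5b (helper62): the scalar potential `theta` of a move and the
identity `moveField = curl-type mixed derivatives of theta`.
-/
import Crest.Agent.Helper21.BoxFlow.MixedDeriv

set_option autoImplicit false
open scoped ContDiff
open Crest.AnalysisR.BoxFlow Crest.Agent.Helper21

namespace Crest.Agent.Helper62

noncomputable section

theorem stp_contDiff : ContDiff ℝ ∞ stp := Real.smoothTransition.contDiff

theorem stp_nonneg (x : ℝ) : 0 ≤ stp x := Real.smoothTransition.nonneg x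

theorem stp_le_one (x : ℝ) : stp x ≤ 1 := Real.smoothTransition.le_one x

theorem stp_zero_of_nonpos {x : ℝ} (h : x ≤ 0) : stp x = 0 :=
  Real.smoothTransition.zero_of_nonpos h

theorem plat_contDiff (lo hi m : ℚ) : ContDiff ℝ ∞ (plat lo hi m) := by
  unfold plat
  exact (stp_contDiff.comp (by fun_prop)).mul (stp_contDiff.comp (by fun_prop))

theorem timeProfile_contDiff (t₀ t₁ : ℚ) : ContDiff ℝ ∞ (timeProfile t₀ t₁) := by
  unfold timeProfile
  exact stp_contDiff.comp (by fun_prop)

theorem plat_eq_zero {lo hi m : ℚ} (hm : 0 < m) {x : ℝ}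
    (hx : x ≤ (lo : ℝ) - m ∨ (hi : ℝ) + m ≤ x) : plat lo hi m x = 0 := by
  have hm' : (0:ℝ) < m := by exact_mod_cast hm
  unfold plat
  rcases hx with hx | hx
  · rw [stp_zero_of_nonpos (x := (x - ((lo : ℝ) - m)) / m)
      (div_nonpos_of_nonpos_of_nonneg (by linarith) hm'.le), zero_mul]
  · rw [stp_zero_of_nonpos (x := (((hi : ℝ) + m) - x) / m)
      (div_nonpos_of_nonpos_of_nonneg (by linarith) hm'.le), mul_zero]

section
variable (a : Fin 3) (α : ℚ) (w lo hi : Fin 3 → ℚ) (m t₀ t₁ : ℚ)

/-- The spatial part of the potential. -/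
def psi (x : Sp) : ℝ :=
  plat (lo a) (hi a) m (x a) * plat (lo (a + 1)) (hi (a + 1)) m (x (a + 1))
    * plat (lo (a + 2)) (hi (a + 2)) m (x (a + 2)) * potF a α w x

/-- The scalar potential of a move: `moveField = S' curl (χ f e_c)` is a combination of second
mixed derivatives of `theta = S χ f`. -/
def theta (p : ℝ × Sp) : ℝ := timeProfile t₀ t₁ p.1 * psi a α w lo hi m p.2

theorem potF_contDiff : ContDiff ℝ ∞ (potF a α w) := by
  unfold potF
  fun_prop

theorem psi_contDiff : ContDiff ℝ ∞ (psi a α w lo hi m) := by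
  unfold psi
  have h : ∀ j : Fin 3, ContDiff ℝ ∞ (fun x : Sp => plat (lo j) (hi j) m (x j)) :=
    fun j => (plat_contDiff _ _ _).comp (contDiff_apply ℝ ℝ j)
  exact (((h a).mul (h (a + 1))).mul (h (a + 2))).mul (potF_contDiff a α w)

theorem theta_contDiff : ContDiff ℝ ∞ (theta a α w lo hi m t₀ t₁) := by
  unfold theta
  exact ((timeProfile_contDiff t₀ t₁).comp contDiff_fst).mul
    ((psi_contDiff a α w lo hi m).comp contDiff_snd)

theorem potF_neg (x : Sp) : potF a (-α) (-w) x = - potF a α w x := by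
  unfold potF
  simp only [Pi.neg_apply, Rat.cast_neg]
  ring

theorem psi_neg (x : Sp) : psi a (-α) (-w) lo hi m x = - psi a α w lo hi m x := by
  unfold psi
  rw [potF_neg]
  ring

theorem theta_neg (p : ℝ × Sp) :
    theta a (-α) (-w) lo hi m t₀ t₁ p = - theta a α w lo hi m t₀ t₁ p := by
  unfold theta
  rw [psi_neg]
  ring


/-! ### Derivatives of the spatial potential -/

theorem fin3_ne_succ (a : Fin 3) : a ≠ a + 1 := by fin_cases a <;> decide
theorem fin3_ne_succ2 (a : Fin 3) : a ≠ a + 2 := by fin_cases a <;> decide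
theorem fin3_succ_ne_succ2 (a : Fin 3) : a + 1 ≠ a + 2 := by fin_cases a <;> decide

local notation "prj" => ContinuousLinearMap.proj (R := ℝ) (φ := fun _ : Fin 3 => ℝ)

theorem hasFDerivAt_plat_coord (j : Fin 3) (x : Sp) :
    HasFDerivAt (fun y : Sp => plat (lo j) (hi j) m (y j))
      (deriv (plat (lo j) (hi j) m) (x j) • prj j) x := by
  have h1 : HasDerivAt (plat (lo j) (hi j) m) (deriv (plat (lo j) (hi j) m) (x j)) (x j) :=
    ((plat_contDiff _ _ _).differentiable (by simp) _).hasDerivAt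
  exact h1.comp_hasFDerivAt x (prj j).hasFDerivAt

theorem hasFDerivAt_potF (x : Sp) :
    HasFDerivAt (potF a α w)
      (x (a + 1) • (((w (a + 1) : ℝ) / 2) • prj (a + 1) + (w (a + 2) : ℝ) • prj (a + 2))
        + ((α : ℝ) + (w (a + 1) : ℝ) * x (a + 1) / 2 + (w (a + 2) : ℝ) * x (a + 2))
          • prj (a + 1)) x := by
  have hb : HasFDerivAt (fun y : Sp => y (a + 1)) (prj (a + 1)) x := (prj (a + 1)).hasFDerivAt
  have hc : HasFDerivAt (fun y : Sp => y (a + 2)) (prj (a + 2)) x := (prj (a + 2)).hasFDerivAt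
  have h2 : HasFDerivAt
      (fun y : Sp => (α : ℝ) + (w (a + 1) : ℝ) * y (a + 1) / 2 + (w (a + 2) : ℝ) * y (a + 2))
      (((w (a + 1) : ℝ) / 2) • prj (a + 1) + (w (a + 2) : ℝ) • prj (a + 2)) x := by
    have := ((hb.const_mul ((w (a + 1) : ℝ) / 2)).const_add (α : ℝ)).fun_add
      (hc.const_mul (w (a + 2) : ℝ))
    have e : (fun y : Sp => (α : ℝ) + (w (a + 1) : ℝ) * y (a + 1) / 2
          + (w (a + 2) : ℝ) * y (a + 2))
        = (fun y : Sp => (α : ℝ) + (w (a + 1) : ℝ) / 2 * y (a + 1)
          + (w (a + 2) : ℝ) * y (a + 2)) := by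
      funext y; ring
    rw [e]
    exact this
  exact hb.fun_mul h2

/-- The derivative of `psi` in the direction `a + 1`. -/
theorem fderiv_psi_succ (x : Sp) :
    fderiv ℝ (psi a α w lo hi m) x (Pi.single (a + 1) 1)
      = plat (lo a) (hi a) m (x a) * plat (lo (a + 2)) (hi (a + 2)) m (x (a + 2))
        * (deriv (plat (lo (a + 1)) (hi (a + 1)) m) (x (a + 1)) * potF a α w x
          + plat (lo (a + 1)) (hi (a + 1)) m (x (a + 1))
            * ((α : ℝ) + (w (a + 1) : ℝ) * x (a + 1) + (w (a + 2) : ℝ) * x (a + 2))) := by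
  have h := (((hasFDerivAt_plat_coord lo hi m a x).fun_mul
    (hasFDerivAt_plat_coord lo hi m (a + 1) x)).fun_mul
    (hasFDerivAt_plat_coord lo hi m (a + 2) x)).fun_mul (hasFDerivAt_potF a α w x)
  have e : fderiv ℝ (psi a α w lo hi m) x = _ := h.fderiv
  rw [e]
  have h1 := fin3_ne_succ a
  have h2 := fin3_succ_ne_succ2 a
  simp only [_root_.add_apply, _root_.smul_apply,
    ContinuousLinearMap.proj_apply, smul_eq_mul, Pi.single_eq_same,
    Pi.single_eq_of_ne h1, Pi.single_eq_of_ne h2.symm]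
  unfold potF
  ring

/-- The derivative of `psi` in the direction `a`. -/
theorem fderiv_psi_self (x : Sp) :
    fderiv ℝ (psi a α w lo hi m) x (Pi.single a 1)
      = deriv (plat (lo a) (hi a) m) (x a) * plat (lo (a + 1)) (hi (a + 1)) m (x (a + 1))
        * plat (lo (a + 2)) (hi (a + 2)) m (x (a + 2)) * potF a α w x := by
  have h := (((hasFDerivAt_plat_coord lo hi m a x).fun_mul
    (hasFDerivAt_plat_coord lo hi m (a + 1) x)).fun_mul
    (hasFDerivAt_plat_coord lo hi m (a + 2) x)).fun_mul (hasFDerivAt_potF a α w x)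
  have e : fderiv ℝ (psi a α w lo hi m) x = _ := h.fderiv
  rw [e]
  have h1 := fin3_ne_succ a
  have h2 := fin3_ne_succ2 a
  simp only [_root_.add_apply, _root_.smul_apply,
    ContinuousLinearMap.proj_apply, smul_eq_mul, Pi.single_eq_same,
    Pi.single_eq_of_ne h1.symm, Pi.single_eq_of_ne h2.symm]
  ring

/-! ### Time and space derivatives of a product `S(t) G(x)` -/

theorem hasFDerivAt_time_mul_space {S : ℝ → ℝ} {G : Sp → ℝ} (hS : Differentiable ℝ S)
    (hG : Differentiable ℝ G) (p : ℝ × Sp) :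
    HasFDerivAt (fun q : ℝ × Sp => S q.1 * G q.2)
      (S p.1 • (fderiv ℝ G p.2).comp (ContinuousLinearMap.snd ℝ ℝ Sp)
        + G p.2 • (deriv S p.1 • ContinuousLinearMap.fst ℝ ℝ Sp)) p := by
  have h1 : HasFDerivAt (fun q : ℝ × Sp => S q.1) (deriv S p.1 • ContinuousLinearMap.fst ℝ ℝ Sp) p :=
    (hS p.1).hasDerivAt.comp_hasFDerivAt p hasFDerivAt_fst
  have h2 : HasFDerivAt (fun q : ℝ × Sp => G q.2)
      ((fderiv ℝ G p.2).comp (ContinuousLinearMap.snd ℝ ℝ Sp)) p :=
    (hG p.2).hasFDerivAt.comp p hasFDerivAt_snd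
  exact h1.fun_mul h2

theorem fderiv_time_mul_space_space {S : ℝ → ℝ} {G : Sp → ℝ} (hS : Differentiable ℝ S)
    (hG : Differentiable ℝ G) (p : ℝ × Sp) (v : Sp) :
    fderiv ℝ (fun q : ℝ × Sp => S q.1 * G q.2) p (0, v) = S p.1 * fderiv ℝ G p.2 v := by
  rw [(hasFDerivAt_time_mul_space hS hG p).fderiv]
  simp

theorem fderiv_time_mul_space_time {S : ℝ → ℝ} {G : Sp → ℝ} (hS : Differentiable ℝ S)
    (hG : Differentiable ℝ G) (p : ℝ × Sp) :
    fderiv ℝ (fun q : ℝ × Sp => S q.1 * G q.2) p (1, 0) = deriv S p.1 * G p.2 := by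
  rw [(hasFDerivAt_time_mul_space hS hG p).fderiv]
  simp [mul_comm]

theorem direction_zero : direction 0 = ((1 : ℝ), (0 : Sp)) := by
  simp [direction]

theorem direction_succ (j : Fin 3) : direction j.succ = ((0 : ℝ), (Pi.single j 1 : Sp)) := by
  simp [direction, Fin.succ_ne_zero]

/-- The mixed derivative `∂_t ∂_{x_j}` of `theta`. -/
theorem mixedDerivS_theta (j : Fin 3) (p : ℝ × Sp) :
    mixedDerivS [0, j.succ] (theta a α w lo hi m t₀ t₁) p
      = deriv (timeProfile t₀ t₁) p.1 * fderiv ℝ (psi a α w lo hi m) p.2 (Pi.single j 1) := by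
  have hS : Differentiable ℝ (timeProfile t₀ t₁) :=
    (timeProfile_contDiff t₀ t₁).differentiable (by simp)
  have hψ : Differentiable ℝ (psi a α w lo hi m) :=
    (psi_contDiff a α w lo hi m).differentiable (by simp)
  have hG : Differentiable ℝ (fun x : Sp => fderiv ℝ (psi a α w lo hi m) x (Pi.single j 1)) := by
    have h1 : ContDiff ℝ ∞ (fderiv ℝ (psi a α w lo hi m)) :=
      (psi_contDiff a α w lo hi m).fderiv_right (by simp)
    exact (h1.clm_apply contDiff_const).differentiable (by simp)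
  have e1 : mixedDerivS [j.succ] (theta a α w lo hi m t₀ t₁)
      = fun q : ℝ × Sp => timeProfile t₀ t₁ q.1
          * fderiv ℝ (psi a α w lo hi m) q.2 (Pi.single j 1) := by
    funext q
    show fderiv ℝ (theta a α w lo hi m t₀ t₁) q (direction j.succ) = _
    rw [direction_succ]
    exact fderiv_time_mul_space_space hS hψ q _
  show fderiv ℝ (mixedDerivS [j.succ] (theta a α w lo hi m t₀ t₁)) p (direction 0) = _
  rw [e1, direction_zero]
  exact fderiv_time_mul_space_time hS hG p

/-- **The curl identity**: the move field is a sum of two second mixed derivatives of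
single-component potential fields. -/
theorem moveField_eq_mixedDeriv (p : ℝ × Sp) :
    moveField a α w lo hi m t₀ t₁ p
      = mixedDeriv [0, (a + 1).succ]
          (fun q => (Pi.single a (theta a α w lo hi m t₀ t₁ q) : Sp)) p
        + mixedDeriv [0, a.succ]
          (fun q => (Pi.single (a + 1) (theta a (-α) (-w) lo hi m t₀ t₁ q) : Sp)) p := by
  funext j
  rw [Pi.add_apply, mixedDeriv_single (theta_contDiff a α w lo hi m t₀ t₁),
    mixedDeriv_single (theta_contDiff a (-α) (-w) lo hi m t₀ t₁),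
    mixedDerivS_theta, mixedDerivS_theta, fderiv_psi_succ, fderiv_psi_self, potF_neg]
  unfold moveField
  by_cases hj : j = a
  · subst hj
    simp only [if_true, if_neg (fin3_ne_succ j), add_zero]
  · by_cases hj' : j = a + 1
    · subst hj'
      simp only [if_neg hj, if_true, zero_add]
      ring
    · simp only [if_neg hj, if_neg hj', add_zero]

theorem single_theta_contDiff (e : Fin 3) :
    ContDiff ℝ ∞ (fun q => (Pi.single e (theta a α w lo hi m t₀ t₁ q) : Sp)) := by
  rw [contDiff_pi]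
  intro i
  by_cases hi : i = e
  · subst hi; simpa using theta_contDiff a α w lo hi m t₀ t₁
  · simpa [Pi.single_eq_of_ne hi] using
      (contDiff_const : ContDiff ℝ ∞ fun _ : ℝ × Sp => (0:ℝ))

/-- Consequence: the move field is smooth. -/
theorem moveField_contDiff' : ContDiff ℝ ∞ (moveField a α w lo hi m t₀ t₁) := by
  have e : moveField a α w lo hi m t₀ t₁ = fun p =>
      mixedDeriv [0, (a + 1).succ]
          (fun q => (Pi.single a (theta a α w lo hi m t₀ t₁ q) : Sp)) p
        + mixedDeriv [0, a.succ]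
          (fun q => (Pi.single (a + 1) (theta a (-α) (-w) lo hi m t₀ t₁ q) : Sp)) p := by
    funext p; exact moveField_eq_mixedDeriv a α w lo hi m t₀ t₁ p
  rw [e]
  exact (mixedDeriv_contDiff (single_theta_contDiff a α w lo hi m t₀ t₁ a) _).add
    (mixedDeriv_contDiff (single_theta_contDiff a (-α) (-w) lo hi m t₀ t₁ (a + 1)) _)

end

end

end Crest.Agent.Helper62
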