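/-
S0170 team project, WP-A5b (helper62): computable global bounds for all mixed derivatives of the
potential field `Helper68.thetaField`.
-/
import Crest.Agent.Helper62.BoxFlow.IterBound
import Crest.Agent.Helper68.BoxFlow.A5bId

set_option autoImplicit false
open scoped ContDiff
open Crest.AnalysisR.BoxFlow Crest.Agent.Helper21

namespace Crest.Agent.Helper62

theorem norm_coordL_le (d : Fin 4) : ‖coordL d‖ ≤ 1 := by
  refine ContinuousLinearMap.opNorm_le_bound _ zero_le_one (fun p => ?_)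
  rw [coordL_apply, one_mul]
  unfold coord
  split_ifs with h
  · exact norm_fst_le p
  · exact (norm_le_pi_norm p.2 _).trans (norm_snd_le p)

theorem coord_zero (p : ℝ × Sp) : coord 0 p = p.1 := by simp [coord]

theorem coord_succ (j : Fin 3) (p : ℝ × Sp) : coord j.succ p = p.2 j := by
  simp [coord, Fin.succ_ne_zero]

section
variable {B : ℕ → ℕ} (hBm : Monotone B) (hB : ∀ (k : ℕ) (x : ℝ), |iteratedDeriv k stp x| ≤ (B k : ℝ))
include hBm hB

/-- The smooth step composed with an affine function of one coordinate. -/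
theorem derivBddAt_stp_coord (d : Fin 4) (κ c₀ : ℝ) (p : ℝ × Sp) {c : ℝ} (hc1 : 1 ≤ c)
    (hκ : |κ| ≤ c) :
    DerivBddAt (fun y : ℝ × Sp => stp (κ * coord d y + c₀)) p (fun k => (B k : ℝ) * c ^ k) := by
  have hL : ‖κ • coordL d‖ ≤ c := by
    rw [norm_smul, Real.norm_eq_abs]
    calc |κ| * ‖coordL d‖ ≤ |κ| * 1 :=
          mul_le_mul_of_nonneg_left (norm_coordL_le d) (abs_nonneg _)
      _ ≤ c := by simpa using hκ
  have h := derivBddAt_comp_affine Real.smoothTransition.contDiff (κ • coordL d) c₀ p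
    (A := fun k => (B k : ℝ))
    (fun i j hij => by show (B i : ℝ) ≤ (B j : ℝ); exact_mod_cast hBm hij) (fun i => hB i _) hc1 hL
  have e : (fun y : ℝ × Sp => stp (κ * coord d y + c₀))
      = fun y => Real.smoothTransition ((κ • coordL d) y + c₀) := by
    funext y; simp [coordL_apply, stp]
  rw [e]; exact h

theorem derivBddAt_timeProfile (t₀ t₁ : ℚ) (p : ℝ × Sp) {c : ℝ} (hc1 : 1 ≤ c)
    (hc : |1 / ((t₁ : ℝ) - t₀)| ≤ c) :
    DerivBddAt (fun y : ℝ × Sp => timeProfile t₀ t₁ y.1) p (fun k => (B k : ℝ) * c ^ k) := by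
  have h := derivBddAt_stp_coord hBm hB 0 (1 / ((t₁ : ℝ) - t₀)) (-(t₀ : ℝ) / ((t₁ : ℝ) - t₀)) p
    hc1 hc
  have e : (fun y : ℝ × Sp => timeProfile t₀ t₁ y.1)
      = fun y => stp (1 / ((t₁ : ℝ) - t₀) * coord 0 y + -(t₀ : ℝ) / ((t₁ : ℝ) - t₀)) := by
    funext y; unfold timeProfile; rw [coord_zero]; congr 1; ring
  rw [e]; exact h

theorem derivBddAt_plat (lo hi m : ℚ) (j : Fin 3) (p : ℝ × Sp) {c : ℝ} (hc1 : 1 ≤ c)
    (hc : |1 / (m : ℝ)| ≤ c) :
    DerivBddAt (fun y : ℝ × Sp => plat lo hi m (y.2 j)) p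
      (fun k => 2 ^ k * ((B k : ℝ) * c ^ k) * ((B k : ℝ) * c ^ k)) := by
  have h1 := derivBddAt_stp_coord hBm hB j.succ (1 / (m : ℝ)) (-((lo : ℝ) - m) / m) p hc1 hc
  have h2 := derivBddAt_stp_coord hBm hB j.succ (-(1 / (m : ℝ))) (((hi : ℝ) + m) / m) p hc1
    (by rwa [abs_neg])
  have e : (fun y : ℝ × Sp => plat lo hi m (y.2 j))
      = fun y => stp (1 / (m : ℝ) * coord j.succ y + -((lo : ℝ) - m) / m)
          * stp (-(1 / (m : ℝ)) * coord j.succ y + ((hi : ℝ) + m) / m) := by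
    funext y; unfold plat; rw [coord_succ]; congr 2 <;> ring
  rw [e]; exact h1.mul h2

end

/-- The quadratic potential: bounded derivatives at points where the two affine factors are
bounded. -/
theorem derivBddAt_potF (a : Fin 3) (α : ℚ) (w : Fin 3 → ℚ) (p : ℝ × Sp) {M c : ℝ}
    (hM1 : 1 ≤ M) (hc1 : 1 ≤ c) (hc : |(w (a + 1) : ℝ)| + |(w (a + 2) : ℝ)| ≤ c)
    (h1 : |p.2 (a + 1)| ≤ M)
    (h2 : |(α : ℝ) + (w (a + 1) : ℝ) * p.2 (a + 1) / 2 + (w (a + 2) : ℝ) * p.2 (a + 2)| ≤ M) :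
    DerivBddAt (fun y : ℝ × Sp => potF a α w y.2) p
      (fun k => 2 ^ k * (M * c ^ k) * (M * c ^ k)) := by
  have hA := derivBddAt_affine (coordL (a + 1).succ) 0 p (M := M) (c := c)
    (by rw [coordL_apply, coord_succ, add_zero]; exact h1) hM1 hc1
    ((norm_coordL_le _).trans hc1)
  have hL : ‖((w (a + 1) : ℝ) / 2) • coordL (a + 1).succ + (w (a + 2) : ℝ) • coordL (a + 2).succ‖
      ≤ c := by
    refine (norm_add_le _ _).trans ?_
    rw [norm_smul, norm_smul, Real.norm_eq_abs, Real.norm_eq_abs]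
    have e1 := norm_coordL_le (a + 1).succ
    have e2 := norm_coordL_le (a + 2).succ
    have e3 : |(w (a + 1) : ℝ) / 2| ≤ |(w (a + 1) : ℝ)| := by
      rw [abs_div]; simp only [Nat.abs_ofNat]
      linarith [abs_nonneg (w (a + 1) : ℝ)]
    have e4 : |(w (a + 1) : ℝ) / 2| * ‖coordL (a + 1).succ‖ ≤ |(w (a + 1) : ℝ)| * 1 :=
      mul_le_mul e3 e1 (norm_nonneg _) (abs_nonneg _)
    have e5 : |(w (a + 2) : ℝ)| * ‖coordL (a + 2).succ‖ ≤ |(w (a + 2) : ℝ)| * 1 :=
      mul_le_mul_of_nonneg_left e2 (abs_nonneg _)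
    linarith
  have hB := derivBddAt_affine
    (((w (a + 1) : ℝ) / 2) • coordL (a + 1).succ + (w (a + 2) : ℝ) • coordL (a + 2).succ)
    (α : ℝ) p (M := M) (c := c)
    (by
      simp only [_root_.add_apply, _root_.smul_apply, coordL_apply, coord_succ, smul_eq_mul]
      convert h2 using 2; ring) hM1 hc1 hL
  have e : (fun y : ℝ × Sp => potF a α w y.2)
      = fun y => (coordL (a + 1).succ y + 0)
          * ((((w (a + 1) : ℝ) / 2) • coordL (a + 1).succ
              + (w (a + 2) : ℝ) • coordL (a + 2).succ) y + (α : ℝ)) := by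
    funext y
    unfold potF
    simp only [_root_.add_apply, _root_.smul_apply, coordL_apply, coord_succ, smul_eq_mul]
    ring
  rw [e]; exact hA.mul hB


open Crest.Agent.Helper68 in
/-- All iterated derivatives of `theta` at a point of the (closed, enlarged) cell. -/
theorem derivBddAt_theta {B : ℕ → ℕ} (hBm : Monotone B)
    (hB : ∀ (k : ℕ) (x : ℝ), |iteratedDeriv k stp x| ≤ (B k : ℝ))
    (a : Fin 3) (α : ℚ) (w lo hi : Fin 3 → ℚ) (m t₀ t₁ : ℚ) (p : ℝ × Sp) {M c : ℝ}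
    (hM1 : 1 ≤ M) (hc1 : 1 ≤ c) (hcw : |(w (a + 1) : ℝ)| + |(w (a + 2) : ℝ)| ≤ c)
    (hct : |1 / ((t₁ : ℝ) - t₀)| ≤ c) (hcm : |1 / (m : ℝ)| ≤ c)
    (h1 : |p.2 (a + 1)| ≤ M)
    (h2 : |(α : ℝ) + (w (a + 1) : ℝ) * p.2 (a + 1) / 2 + (w (a + 2) : ℝ) * p.2 (a + 2)| ≤ M) :
    DerivBddAt (theta a α w lo hi m t₀ t₁) p
      (fun k => 2 ^ (8 * k) * (B k : ℝ) ^ 7 * c ^ (9 * k) * M ^ 2) := by
  have hT := derivBddAt_timeProfile hBm hB t₀ t₁ p hc1 hct
  have hP := fun j : Fin 3 => derivBddAt_plat hBm hB (lo j) (hi j) m j p hc1 hcm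
  have hF := derivBddAt_potF a α w p hM1 hc1 hcw h1 h2
  have h := (((hT.mul (hP a)).mul (hP (a + 1))).mul (hP (a + 2))).mul hF
  have hmono : Monotone (fun k : ℕ => 2 ^ (8 * k) * (B k : ℝ) ^ 7 * c ^ (9 * k) * M ^ 2) := by
    intro i j hij
    have hc0 : (0:ℝ) ≤ c := zero_le_one.trans hc1
    have e1 : (2:ℝ) ^ (8 * i) ≤ 2 ^ (8 * j) :=
      pow_le_pow_right₀ (by norm_num) (Nat.mul_le_mul_left 8 hij)
    have e2 : (B i : ℝ) ^ 7 ≤ (B j : ℝ) ^ 7 :=
      pow_le_pow_left₀ (Nat.cast_nonneg _) (by exact_mod_cast hBm hij) 7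
    have e3 : c ^ (9 * i) ≤ c ^ (9 * j) := pow_le_pow_right₀ hc1 (Nat.mul_le_mul_left 9 hij)
    show 2 ^ (8 * i) * (B i : ℝ) ^ 7 * c ^ (9 * i) * M ^ 2
      ≤ 2 ^ (8 * j) * (B j : ℝ) ^ 7 * c ^ (9 * j) * M ^ 2
    gcongr
  exact h.mono_bound hmono (fun i => le_of_eq (by ring))

theorem plat_eq_zero_of_outside {lo hi m : ℚ} (hm : 0 < m) {x : ℝ}
    (hx : x ≤ (lo : ℝ) - m ∨ (hi : ℝ) + m ≤ x) : plat lo hi m x = 0 := by
  have hm' : (0:ℝ) < m := by exact_mod_cast hm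
  unfold plat
  rcases hx with hx | hx
  · rw [show stp ((x - ((lo : ℝ) - m)) / m) = 0 from
      Real.smoothTransition.zero_of_nonpos
        (div_nonpos_of_nonpos_of_nonneg (by linarith) hm'.le), zero_mul]
  · rw [show stp ((((hi : ℝ) + m) - x) / m) = 0 from
      Real.smoothTransition.zero_of_nonpos
        (div_nonpos_of_nonpos_of_nonneg (by linarith) hm'.le), mul_zero]

theorem fin3_cases (a j : Fin 3) : j = a ∨ j = a + 1 ∨ j = a + 2 := by
  revert a j; decide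

open Crest.Agent.Helper68 in
/-- `theta` vanishes at points with a coordinate outside the enlarged open cell. -/
theorem theta_eq_zero_of_not_mem (a : Fin 3) (α : ℚ) (w lo hi : Fin 3 → ℚ) (m t₀ t₁ : ℚ)
    (hm : 0 < m) (p : ℝ × Sp) (j : Fin 3)
    (hj : p.2 j ≤ (lo j : ℝ) - m ∨ (hi j : ℝ) + m ≤ p.2 j) :
    theta a α w lo hi m t₀ t₁ p = 0 := by
  have h0 := plat_eq_zero_of_outside (lo := lo j) (hi := hi j) hm hj
  unfold theta
  rcases fin3_cases a j with rfl | rfl | rfl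
  · rw [h0]; ring
  · rw [h0]; ring
  · rw [h0]; ring

open Crest.Agent.Helper68 in
/-- Explicit bound for all scalar mixed derivatives of `theta`. -/
theorem theta_mixedDerivS_bound {B : ℕ → ℕ} (hBm : Monotone B)
    (hB : ∀ (k : ℕ) (x : ℝ), |iteratedDeriv k stp x| ≤ (B k : ℝ))
    (a : Fin 3) (α : ℚ) (w lo hi : Fin 3 → ℚ) (m t₀ t₁ : ℚ) (hm : 0 < m) :
    ∃ c M : ℕ, ∀ (ds : List (Fin 4)) (p : ℝ × Sp),
      |mixedDerivS ds (theta a α w lo hi m t₀ t₁) p|
        ≤ ((2 ^ (8 * ds.length) * B ds.length ^ 7 * c ^ (9 * ds.length) * M ^ 2 : ℕ) : ℝ) := by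
  -- a bound for the coordinates of points of the enlarged cell
  set X : ℝ := ∑ j : Fin 3, (|(lo j : ℝ) - m| + |(hi j : ℝ) + m|) with hX
  have hX0 : 0 ≤ X := Finset.sum_nonneg fun j _ => by positivity
  obtain ⟨c, hc⟩ := exists_nat_ge
    (1 + |1 / ((t₁ : ℝ) - t₀)| + |1 / (m : ℝ)| + (|(w (a + 1) : ℝ)| + |(w (a + 2) : ℝ)|))
  obtain ⟨M, hM⟩ := exists_nat_ge
    (1 + X + |(α : ℝ)| + (|(w (a + 1) : ℝ)| + |(w (a + 2) : ℝ)|) * X)
  refine ⟨c, M, fun ds p => ?_⟩
  have hθ := contDiff_theta a α w lo hi m t₀ t₁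
  refine (abs_mixedDerivS_le hθ ds p).trans ?_
  by_cases hp : ∀ j, (lo j : ℝ) - m ≤ p.2 j ∧ p.2 j ≤ (hi j : ℝ) + m
  · have hx : ∀ j, |p.2 j| ≤ X := by
      intro j
      have h1 : |p.2 j| ≤ max |(lo j : ℝ) - m| |(hi j : ℝ) + m| :=
        abs_le_max_abs_abs (hp j).1 (hp j).2
      have h2 : max |(lo j : ℝ) - m| |(hi j : ℝ) + m| ≤ |(lo j : ℝ) - m| + |(hi j : ℝ) + m| :=
        max_le (le_add_of_nonneg_right (abs_nonneg _)) (le_add_of_nonneg_left (abs_nonneg _))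
      have h3 : |(lo j : ℝ) - m| + |(hi j : ℝ) + m| ≤ X :=
        Finset.single_le_sum (f := fun j : Fin 3 => |(lo j : ℝ) - m| + |(hi j : ℝ) + m|)
          (fun i _ => by positivity) (Finset.mem_univ j)
      linarith
    have hw0 : 0 ≤ |(w (a + 1) : ℝ)| + |(w (a + 2) : ℝ)| := by positivity
    have h1 : |p.2 (a + 1)| ≤ (M : ℝ) := by
      have := hx (a + 1)
      have : 0 ≤ (|(w (a + 1) : ℝ)| + |(w (a + 2) : ℝ)|) * X := mul_nonneg hw0 hX0
      linarith [abs_nonneg (α : ℝ)]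
    have h2 : |(α : ℝ) + (w (a + 1) : ℝ) * p.2 (a + 1) / 2 + (w (a + 2) : ℝ) * p.2 (a + 2)|
        ≤ (M : ℝ) := by
      have e1 : |(w (a + 1) : ℝ) * p.2 (a + 1) / 2| ≤ |(w (a + 1) : ℝ)| * X := by
        rw [abs_div, abs_mul]
        simp only [Nat.abs_ofNat]
        have := mul_le_mul_of_nonneg_left (hx (a + 1)) (abs_nonneg (w (a + 1) : ℝ))
        have h0 : 0 ≤ |(w (a + 1) : ℝ)| * |p.2 (a + 1)| := by positivity
        linarith
      have e2 : |(w (a + 2) : ℝ) * p.2 (a + 2)| ≤ |(w (a + 2) : ℝ)| * X := by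
        rw [abs_mul]
        exact mul_le_mul_of_nonneg_left (hx (a + 2)) (abs_nonneg _)
      have e3 := abs_add_three (α : ℝ) ((w (a + 1) : ℝ) * p.2 (a + 1) / 2)
        ((w (a + 2) : ℝ) * p.2 (a + 2))
      nlinarith
    have hM1 : (1:ℝ) ≤ M := by
      have : 0 ≤ (|(w (a + 1) : ℝ)| + |(w (a + 2) : ℝ)|) * X := mul_nonneg hw0 hX0
      linarith [abs_nonneg (α : ℝ)]
    have hc1 : (1:ℝ) ≤ c := by
      linarith [abs_nonneg (1 / ((t₁ : ℝ) - t₀)), abs_nonneg (1 / (m : ℝ))]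
    have hcw : |(w (a + 1) : ℝ)| + |(w (a + 2) : ℝ)| ≤ (c : ℝ) := by
      linarith [abs_nonneg (1 / ((t₁ : ℝ) - t₀)), abs_nonneg (1 / (m : ℝ))]
    have hct : |1 / ((t₁ : ℝ) - t₀)| ≤ (c : ℝ) := by
      linarith [abs_nonneg (1 / (m : ℝ))]
    have hcm : |1 / (m : ℝ)| ≤ (c : ℝ) := by
      linarith [abs_nonneg (1 / ((t₁ : ℝ) - t₀))]
    have h := (derivBddAt_theta hBm hB a α w lo hi m t₀ t₁ p hM1 hc1 hcw hct hcm h1 h2).bdd
      ds.length
    refine h.trans (le_of_eq ?_)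
    push_cast
    ring
  · -- outside the closed enlarged cell `theta` vanishes identically near `p`
    have hK : IsClosed {q : ℝ × Sp | ∀ j, (lo j : ℝ) - m ≤ q.2 j ∧ q.2 j ≤ (hi j : ℝ) + m} := by
      simp only [Set.ofPred_forall, Set.ofPred_and]
      exact isClosed_iInter fun j =>
        (isClosed_le continuous_const (by fun_prop)).inter
          (isClosed_le (by fun_prop) continuous_const)
    have hsupp : Function.support (theta a α w lo hi m t₀ t₁)
        ⊆ {q : ℝ × Sp | ∀ j, (lo j : ℝ) - m ≤ q.2 j ∧ q.2 j ≤ (hi j : ℝ) + m} := by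
      intro q hq
      by_contra hq'
      simp only [Set.mem_ofPred_eq, not_forall, not_and_or, not_le] at hq'
      obtain ⟨j, hj⟩ := hq'
      exact hq (theta_eq_zero_of_not_mem a α w lo hi m t₀ t₁ hm q j
        (hj.imp le_of_lt le_of_lt))
    have hts : tsupport (theta a α w lo hi m t₀ t₁)
        ⊆ {q : ℝ × Sp | ∀ j, (lo j : ℝ) - m ≤ q.2 j ∧ q.2 j ≤ (hi j : ℝ) + m} :=
      closure_minimal hsupp hK
    have h0 : iteratedFDeriv ℝ ds.length (theta a α w lo hi m t₀ t₁) p = 0 := by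
      by_contra hne
      exact hp (hts (support_iteratedFDeriv_subset (𝕜 := ℝ) ds.length hne))
    rw [h0, norm_zero]
    exact Nat.cast_nonneg _

theorem primrec_nat_pow' : Primrec₂ (fun a b : ℕ => a ^ b) :=
  Primrec₂.unpaired'.1 Nat.Primrec.pow

open Crest.Agent.Helper68 in
/-- **Bounds for `thetaField`**: a computable bound for every mixed derivative. -/
theorem thetaField_bound {B : ℕ → ℕ} (hBc : Computable B) (hBm : Monotone B)
    (hB : ∀ (k : ℕ) (x : ℝ), |iteratedDeriv k stp x| ≤ (B k : ℝ))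
    (e a : Fin 3) (α : ℚ) (w lo hi : Fin 3 → ℚ) (m t₀ t₁ : ℚ) (hm : 0 < m) :
    ∃ bound : List (Fin 4) → ℕ, Computable bound ∧
      ∀ (ds : List (Fin 4)) (p : ℝ × Sp) (j : Fin 3),
        |mixedDeriv ds (thetaField e a α w lo hi m t₀ t₁) p j| ≤ (bound ds : ℝ) := by
  obtain ⟨c, M, h⟩ := theta_mixedDerivS_bound hBm hB a α w lo hi m t₀ t₁ hm
  refine ⟨fun ds => 2 ^ (8 * ds.length) * B ds.length ^ 7 * c ^ (9 * ds.length) * M ^ 2, ?_, ?_⟩
  · have hlen : Computable (fun ds : List (Fin 4) => ds.length) := Computable.list_length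
    have hpow := primrec_nat_pow'.to_comp
    have hmul := Primrec.nat_mul.to_comp
    have h1 : Computable (fun ds : List (Fin 4) => 2 ^ (8 * ds.length)) :=
      hpow.comp (Computable.const 2) (hmul.comp (Computable.const 8) hlen)
    have h2 : Computable (fun ds : List (Fin 4) => B ds.length ^ 7) :=
      hpow.comp (hBc.comp hlen) (Computable.const 7)
    have h3 : Computable (fun ds : List (Fin 4) => c ^ (9 * ds.length)) :=
      hpow.comp (Computable.const c) (hmul.comp (Computable.const 9) hlen)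
    exact hmul.comp (hmul.comp (hmul.comp h1 h2) h3) (Computable.const (M ^ 2))
  · intro ds p j
    unfold thetaField
    rw [mixedDeriv_single (contDiff_theta a α w lo hi m t₀ t₁)]
    split_ifs
    · exact h ds p
    · rw [abs_zero]; exact Nat.cast_nonneg _

end Crest.Agent.Helper62
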